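import Vale.Agent.P344.MathlibUsed
attribute [-instance] ProperSMul.toContinuousSMul IsTopologicalTorsor.toContinuousSMul IdemSemiring.toCanonicallyOrderedAdd IdemSemiring.toMulLeftMono IdemSemiring.toMulRightMono AddQuantale.instAddLeftMono AddQuantale.instAddRightMono Quantale.instMulLeftMono Quantale.instMulRightMono FiniteDimensional.rclike_to_real IsScalarTower.complexToReal FiniteDimensional.complexToReal

namespace Vale.Agent.P344.HB

/-- One gate of a linear circuit with coefficients in `K`; the arguments are positions in the list
of values computed so far. -/
inductive Gate (K : Type*) : Type _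
  | add (i j : ℕ) : Gate K
  | sub (i j : ℕ) : Gate K
  | smul (c : K) (i : ℕ) : Gate K

/-- Apply `f` to the coefficient of a gate. -/
def Gate.map {K L : Type*} (f : K → L) : Gate K → Gate L
  | .add i j => .add i j
  | .sub i j => .sub i j
  | .smul c i => .smul (f c) i

/-- The value computed by a gate from the list of the values computed so far. A position beyond
the end of the list stands for `0`. -/
def Gate.val {K M : Type*} [CommRing K] [AddCommGroup M] [Module K M] : Gate K → List M → M
  | .add i j, v => v.getD i 0 + v.getD j 0
  | .sub i j, v => v.getD i 0 - v.getD j 0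
  | .smul c i, v => c • v.getD i 0

/-- Run a list of gates: each gate appends the value it computes. -/
def run {K M : Type*} [CommRing K] [AddCommGroup M] [Module K M] : List (Gate K) → List M → List M
  | [], v => v
  | g :: P, v => run P (v ++ [g.val v])

/-- The circuit `P` with inputs `x 0, ..., x (n-1)` computes the discrete Fourier transform
`(ζ ^ (j k)) x` for every `x`. -/
def ComputesDFT {K : Type*} [CommRing K] (n : ℕ) (ζ : K) (P : List (Gate K)) : Prop :=
  ∃ out : Fin n → ℕ, ∀ x : Fin n → K, ∀ j : Fin n,
    (run P (List.ofFn x)).getD (out j) 0 = ∑ k : Fin n, ζ ^ ((j : ℕ) * (k : ℕ)) * x k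

/-- The list of the coefficient vectors of all linear forms computed by the circuit (the inputs
first). -/
def forms {K : Type*} [CommRing K] (n : ℕ) (P : List (Gate K)) : List (Fin n → K) :=
  run P (List.ofFn fun k : Fin n => (Pi.single k 1 : Fin n → K))

/-- Absolute logarithmic Weil height (to base 2) of the projective point with coordinates `u`. -/
noncomputable def ht {K : Type*} [Field K] [NumberField K] {n : ℕ} (u : Fin n → K) : ℝ :=
  Height.logHeight u / (Module.finrank ℚ K * Real.log 2)

/-- Absolute logarithmic Weil height (to base 2) of an element of a number field. -/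
noncomputable def ht₁ {K : Type*} [Field K] [NumberField K] (c : K) : ℝ :=
  Height.logHeight₁ c / (Module.finrank ℚ K * Real.log 2)

/-- Cost of a gate in terms of coefficients: 1 for an addition or subtraction, the height of the
coefficient for a scalar multiplication. -/
noncomputable def Gate.coefCost {K : Type*} [Field K] [NumberField K] : Gate K → ℝ
  | .add _ _ => 1
  | .sub _ _ => 1
  | .smul c _ => ht₁ c

/-- Cost of a gate in terms of linear forms, when `U` is the list of the coefficient vectors
computed so far: 2 plus the heights of the two linear forms it reads for an addition or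
subtraction, 0 for a scalar multiplication. -/
noncomputable def Gate.formCost {K : Type*} [Field K] [NumberField K] {n : ℕ}
    (U : List (Fin n → K)) : Gate K → ℝ
  | .add i j => 2 + ht (U.getD i 0) + ht (U.getD j 0)
  | .sub i j => 2 + ht (U.getD i 0) + ht (U.getD j 0)
  | .smul _ _ => 0

theorem Gate.map_add {K L : Type*} (f : K → L) (i j : ℕ) :
    (Gate.add i j).map f = .add i j := rfl

theorem Gate.map_sub {K L : Type*} (f : K → L) (i j : ℕ) :
    (Gate.sub i j).map f = .sub i j := rfl

theorem Gate.map_smul {K L : Type*} (f : K → L) (c : K) (i : ℕ) :
    (Gate.smul c i).map f = .smul (f c) i := rfl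

end Vale.Agent.P344.HB
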